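import Vale.Agent.P290.Bdl.B3
import Mathlib.Analysis.Normed.Lp.lpSpace
import Mathlib.Analysis.Normed.Operator.Banach

/-!
Extension of holomorphic maps from the graph of an entire function, with bounds, and
approximation by entire maps.
-/

open Set Filter Metric
open scoped Topology ENNReal

namespace Vale.Agent.P290Z

open Vale.Agent.P290

variable {V E : Type} [NormedAddCommGroup V] [NormedSpace ℂ V] [FiniteDimensional ℂ V]
  [NormedAddCommGroup E] [NormedSpace ℂ E] [FiniteDimensional ℂ E] {h : V → ℂ}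

namespace Ext

theorem scalar {S : Set (V × ℂ)} (hS : Good S) (hh : Differentiable ℂ h) {U : Set V}
    (hU : IsOpen U) (hSU : ∀ x, (x, h x) ∈ S → x ∈ U) {f : V → ℂ} (hf : DifferentiableOn ℂ f U) :
    ∃ F : V × ℂ → ℂ, HolNear S F ∧ ∀ x ∈ U, F (x, h x) = f x := by
  classical
  have hq : Differentiable ℂ fun p : V × ℂ => p.2 - h p.1 :=
    differentiable_snd.sub (hh.comp differentiable_fst)
  let O : Bool → Set (V × ℂ) := fun a => if a then {p | p.1 ∈ U} else {p | p.2 - h p.1 ≠ 0}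
  let k : Bool → V × ℂ → ℂ := fun a p => if a then 0 else f p.1 * (p.2 - h p.1)⁻¹
  have hO : ∀ a, IsOpen (O a) := fun a => by
    cases a
    · exact isOpen_ne_fun hq.continuous continuous_const
    · exact hU.preimage continuous_fst
  have hf1 : ∀ p : V × ℂ, p.1 ∈ U → DifferentiableAt ℂ (fun p : V × ℂ => f p.1) p := fun p hp =>
    (hf.differentiableAt (hU.mem_nhds hp)).comp p differentiableAt_fst
  have hk : ∀ p : V × ℂ, p.1 ∈ U → p.2 - h p.1 ≠ 0 → DifferentiableAt ℂ (k false) p :=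
    fun p h1 h2 => (hf1 p h1).mul ((hq p).inv h2)
  have hcov : S ⊆ ⋃ a, O a := fun p hp => by
    by_cases e : p.2 - h p.1 = 0
    · exact mem_iUnion.2 ⟨true, hSU p.1 (by rwa [← sub_eq_zero.1 e])⟩
    · exact mem_iUnion.2 ⟨false, e⟩
  obtain ⟨u, hu⟩ := hS.cousin1' O hO hcov (fun a b p => k b p - k a p) (fun a b p hp => by
    cases a <;> cases b
    · simp
    · exact (differentiableAt_const _).sub (hk p hp.2 hp.1)
    · exact (hk p hp.1 hp.2).sub (differentiableAt_const _)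
    · simp) fun a b d p _ => by ring
  refine ⟨fun p => if p.1 ∈ U then f p.1 + (p.2 - h p.1) * u true p else (p.2 - h p.1) * u false p,
    ?_, fun x hx => by simp [hx]⟩
  filter_upwards [ev_ev_nhdsSet hu, (isOpen_iUnion hO).mem_nhdsSet.2 hcov] with p hp hp'
  obtain ⟨a, ha⟩ := mem_iUnion.1 hp'
  cases a
  · refine ((hq p).mul (hp.self_of_nhds false ha).1).congr_of_eventuallyEq ?_
    filter_upwards [hp, (hO false).mem_nhds ha] with y hy hy'
    split_ifs with e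
    · have h0 : y.2 - h y.1 ≠ 0 := hy'
      rw [Pi.mul_apply, (hy true e).2 false hy']
      simp only [k, if_true, Bool.false_eq_true, if_false]
      field_simp
      ring
    · rfl
  · refine ((hf1 p ha).add ((hq p).mul (hp.self_of_nhds true ha).1)).congr_of_eventuallyEq ?_
    filter_upwards [(hO true).mem_nhds ha] with y hy
    exact if_pos hy

theorem core {S : Set (V × ℂ)} (hS : Good S) (hh : Differentiable ℂ h) {U : Set V}
    (hU : IsOpen U) (hSU : ∀ x, (x, h x) ∈ S → x ∈ U) {f : V → E} (hf : DifferentiableOn ℂ f U) :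
    ∃ F : V × ℂ → E, HolNear S F ∧ ∀ x ∈ U, F (x, h x) = f x := by
  let φ : E ≃L[ℂ] (Fin (Module.finrank ℂ E) → ℂ) := ContinuousLinearEquiv.ofFinrankEq (by simp)
  choose F h1 h2 using fun k => scalar hS hh hU hSU (f := fun x => φ (f x) k)
    (differentiableOn_pi.1 (φ.differentiable.comp_differentiableOn hf) k)
  refine ⟨fun p => φ.symm fun k => F k p, ?_, fun x hx => ?_⟩
  · filter_upwards [eventually_all.2 h1] with p hp
    exact φ.symm.differentiableAt.comp p (differentiableAt_pi.2 hp)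
  · simp only [h2 _ x hx]
    exact φ.symm_apply_apply _

omit [FiniteDimensional ℂ V] in
theorem closed_hol {U : Set V} (hU : IsOpen U) :
    IsClosed {g : lp (fun _ : V => E) ∞ | DifferentiableOn ℂ (fun x => g x) U} := by
  have : CompleteSpace E := FiniteDimensional.complete ℂ E
  refine isClosed_of_closure_subset fun g hg => ?_
  obtain ⟨G, h1, h2⟩ := mem_closure_iff_seq_limit.1 hg
  refine differentiableOn_of_tendstoLocallyUniformlyOn (G := fun n x => G n x) (φ := atTop) hU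
    (TendstoUniformlyOn.tendstoLocallyUniformlyOn (Metric.tendstoUniformlyOn_iff.2 fun ε hε => ?_))
    (Eventually.of_forall h1)
  filter_upwards [Metric.tendsto_nhds.1 h2 ε hε] with n hn x _
  rw [dist_comm, dist_eq_norm] at hn
  rw [dist_eq_norm]
  exact (lp.norm_apply_le_norm ENNReal.top_ne_zero (g - G n) x).trans_lt hn

omit [FiniteDimensional ℂ E] [NormedSpace ℂ E] in
theorem cont_ev {α : Type} (x : α) : Continuous fun g : lp (fun _ : α => E) ∞ => g x :=
  (LipschitzWith.of_dist_le_mul (K := 1) fun g g' => by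
    rw [NNReal.coe_one, one_mul, dist_eq_norm, dist_eq_norm]
    exact lp.norm_apply_le_norm ENNReal.top_ne_zero (g - g') x).continuous

omit [FiniteDimensional ℂ E] [NormedSpace ℂ E] in
theorem exists_lp {α : Type} (W : Set α) (F : α → E) {M : ℝ} (hM : 0 ≤ M)
    (hF : ∀ p ∈ W, ‖F p‖ ≤ M) : ∃ G : lp (fun _ : α => E) ∞, ‖G‖ ≤ M ∧ ∀ p ∈ W, G p = F p := by
  have h1 : ∀ p, ‖W.indicator F p‖ ≤ M := fun p => by
    by_cases e : p ∈ W
    · rw [indicator_of_mem e]
      exact hF p e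
    · rwa [indicator_of_notMem e, norm_zero]
  exact ⟨⟨W.indicator F, memℓp_infty ⟨M, by
    rintro _ ⟨p, rfl⟩
    exact h1 p⟩⟩, lp.norm_le_of_forall_le hM h1, fun p hp => indicator_of_mem hp F⟩

/-- bounded maps which are holomorphic on `U` -/
def HB (E : Type) [NormedAddCommGroup E] [NormedSpace ℂ E] (U : Set V) :
    Submodule ℂ (lp (fun _ : V => E) ∞) where
  carrier := {g | DifferentiableOn ℂ (fun x => g x) U}
  add_mem' ha hb := DifferentiableOn.add ha hb
  zero_mem' := differentiableOn_const (0 : E)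
  smul_mem' c _ ha := DifferentiableOn.const_smul ha c

/-- pairs of a map and an extension -/
def GR (E : Type) [NormedAddCommGroup E] [NormedSpace ℂ E] (h : V → ℂ) (U : Set V)
    (W : Set (V × ℂ)) : Submodule ℂ (lp (fun _ : V => E) ∞ × lp (fun _ : V × ℂ => E) ∞) where
  carrier := {q | q.1 ∈ HB E U ∧ q.2 ∈ HB E W ∧ ∀ x, (x, h x) ∈ W → q.2 (x, h x) = q.1 x}
  add_mem' ha hb := ⟨add_mem ha.1 hb.1, add_mem ha.2.1 hb.2.1, fun x hx =>
    congrArg₂ (· + ·) (ha.2.2 x hx) (hb.2.2 x hx)⟩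
  zero_mem' := ⟨zero_mem _, zero_mem _, fun _ _ => rfl⟩
  smul_mem' c _ ha := ⟨Submodule.smul_mem _ c ha.1, Submodule.smul_mem _ c ha.2.1, fun x hx =>
    congrArg (c • ·) (ha.2.2 x hx)⟩

theorem bounded {S : Set (V × ℂ)} (hS : Good S) (hh : Differentiable ℂ h) {U : Set V}
    (hU : IsOpen U) (hSU : ∀ x, (x, h x) ∈ S → x ∈ U) :
    ∃ (W : Set (V × ℂ)) (C : ℝ), IsOpen W ∧ S ⊆ W ∧ 0 < C ∧ ∀ (f : V → E) (M : ℝ), 0 ≤ M →
      DifferentiableOn ℂ f U → (∀ x ∈ U, ‖f x‖ ≤ M) → ∃ F : V × ℂ → E, DifferentiableOn ℂ F W ∧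
        (∀ p ∈ W, ‖F p‖ ≤ C * M) ∧ ∀ x, (x, h x) ∈ W → x ∈ U ∧ F (x, h x) = f x := by
  have : CompleteSpace E := FiniteDimensional.complete ℂ E
  have : ProperSpace (V × ℂ) := FiniteDimensional.proper ℂ _
  have hO : IsOpen ({p : V × ℂ | p.1 ∈ U} ∪ {p | p.2 ≠ h p.1}) :=
    (hU.preimage continuous_fst).union
      (isOpen_ne_fun continuous_snd (hh.continuous.comp continuous_fst))
  obtain ⟨δ, hδ, hδO⟩ := hS.1.exists_cthickening_subset_open hO fun p hp => by
    by_cases e : p.2 = h p.1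
    · exact Or.inl (hSU p.1 (by rwa [← e]))
    · exact Or.inr e
  have hS' : Good (cthickening δ S) := ⟨hS.1.cthickening, hS.2.cthickening δ⟩
  have hSU' : ∀ x, (x, h x) ∈ cthickening δ S → x ∈ U := fun x hx =>
    (hδO hx).resolve_right fun e => e rfl
  have hW := thickening_subset_cthickening δ S
  have c1 : IsClosed (HB E U : Set (lp (fun _ : V => E) ∞)) := closed_hol hU
  have c2 : IsClosed (GR E h U (thickening δ S) :
      Set (lp (fun _ : V => E) ∞ × lp (fun _ : V × ℂ => E) ∞)) := by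
    refine (c1.preimage continuous_fst).inter
      (((closed_hol isOpen_thickening).preimage continuous_snd).inter ?_)
    have c3 : IsClosed (⋂ x, ⋂ _ : (x, h x) ∈ thickening δ S,
        {q : lp (fun _ : V => E) ∞ × lp (fun _ : V × ℂ => E) ∞ | q.2 (x, h x) = q.1 x}) :=
      isClosed_iInter fun x => isClosed_iInter fun _ =>
        isClosed_eq ((cont_ev (x, h x)).comp continuous_snd) ((cont_ev x).comp continuous_fst)
    exact isClosed_of_closure_subset fun q hq =>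
      mem_iInter₂.1 (closure_minimal (fun q hq => mem_iInter₂.2 hq) c3 hq)
  have := c1.completeSpace_coe
  have := c2.completeSpace_coe
  let π : GR E h U (thickening δ S) →L[ℂ] HB E U :=
    ((ContinuousLinearMap.fst ℂ _ _).comp (GR E h U (thickening δ S)).subtypeL).codRestrict _
      fun q => q.2.1
  have hπ : Function.Surjective π := fun g => by
    obtain ⟨F, h1, h2⟩ := core hS' hh hU hSU' (f := fun x => g.1 x) g.2
    have h3 : DifferentiableOn ℂ F (cthickening δ S) := fun p hp =>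
      (h1.self_of_nhdsSet p hp).differentiableWithinAt
    obtain ⟨M, hM⟩ := hS'.1.exists_bound_of_continuousOn h3.continuousOn
    obtain ⟨G, -, hG⟩ := exists_lp (thickening δ S) F (le_max_right M 0)
      fun p hp => (hM p (hW hp)).trans (le_max_left _ _)
    exact ⟨⟨(g.1, G), g.2, (h3.mono hW).congr hG, fun x hx =>
      (hG _ hx).trans (h2 x (hSU' x (hW hx)))⟩, rfl⟩
  obtain ⟨C, hC, hπ'⟩ := π.exists_preimage_norm_le hπ
  refine ⟨thickening δ S, C, isOpen_thickening, self_subset_thickening hδ S, hC,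
    fun f M hM hf hb => ?_⟩
  obtain ⟨g, hg, hg'⟩ := exists_lp U f hM hb
  obtain ⟨q, hq, hq'⟩ := hπ' ⟨g, hf.congr hg'⟩
  have e : q.1.1 = g := congrArg Subtype.val hq
  refine ⟨fun p => q.1.2 p, q.2.2.1, fun p _ => ?_, fun x hx => ⟨hSU' x (hW hx), ?_⟩⟩
  · exact (lp.norm_apply_le_norm ENNReal.top_ne_zero q.1.2 p).trans ((norm_snd_le q.1).trans
      (hq'.trans (mul_le_mul_of_nonneg_left hg hC.le)))
  · exact (q.2.2.2 x hx).trans (e ▸ hg' x (hSU' x (hW hx)))

end Ext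

variable {L : Set V} {T : Set ℂ}

omit [FiniteDimensional ℂ V] in
theorem good_prod {V' : Type} [NormedAddCommGroup V'] [NormedSpace ℂ V'] {L' : Set V'}
    (hL : Good L) (hL' : Good L') : Good (L ×ˢ L') := ⟨hL.1.prod hL'.1, hL.2.prod hL'.2⟩

/-- EXT: extension from the graph -/
theorem ext_graph (hL : Good L) (hT : Good T) (hh : Differentiable ℂ h) {f : V → E}
    (hf : HolNear {x ∈ L | h x ∈ T} f) : ∃ F : V × ℂ → E, HolNear (L ×ˢ T) F ∧
      ∀ᶠ x in 𝓝ˢ {x ∈ L | h x ∈ T}, F (x, h x) = f x := by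
  obtain ⟨U, hU, h1, h2⟩ := eventually_nhdsSet_iff_exists.1 hf
  obtain ⟨F, h3, h4⟩ := Ext.core (good_prod hL hT) hh hU (fun x hx => h1 hx)
    fun x hx => (h2 x hx).differentiableWithinAt
  exact ⟨F, h3, eventually_nhdsSet_iff_exists.2 ⟨U, hU, h1, h4⟩⟩

/-- BEXT: extension from the graph with a bound -/
theorem bext_graph (hL : Good L) (hT : Good T) (hh : Differentiable ℂ h) {U : Set V}
    (hU : IsOpen U) (hLU : ∀ x ∈ L, h x ∈ T → x ∈ U) :
    ∃ (W : Set (V × ℂ)) (C : ℝ), IsOpen W ∧ L ×ˢ T ⊆ W ∧ 0 < C ∧ ∀ (f : V → E) (M : ℝ), 0 ≤ M →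
      DifferentiableOn ℂ f U → (∀ x ∈ U, ‖f x‖ ≤ M) → ∃ F : V × ℂ → E, DifferentiableOn ℂ F W ∧
        (∀ p ∈ W, ‖F p‖ ≤ C * M) ∧ ∀ x, (x, h x) ∈ W → x ∈ U ∧ F (x, h x) = f x :=
  Ext.bounded (good_prod hL hT) hh hU fun x hx => hLU x hx.1 hx.2

/-- BEXT with parameters in a ball -/
theorem bext_param {P : Type} [NormedAddCommGroup P] [NormedSpace ℂ P] [FiniteDimensional ℂ P]
    (hL : Good L) (hT : Good T) (hh : Differentiable ℂ h) {U : Set V} (hU : IsOpen U)
    (hLU : ∀ x ∈ L, h x ∈ T → x ∈ U) {r r' : ℝ} (hr : r' < r) :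
    ∃ (W : Set (V × ℂ)) (C : ℝ), IsOpen W ∧ L ×ˢ T ⊆ W ∧ 0 < C ∧ ∀ (e : V × P → E) (M : ℝ),
      0 ≤ M → DifferentiableOn ℂ e (U ×ˢ ball 0 r) → (∀ x ∈ U ×ˢ ball (0 : P) r, ‖e x‖ ≤ M) →
      ∃ F : (V × ℂ) × P → E, DifferentiableOn ℂ F (W ×ˢ ball 0 r') ∧
        (∀ p ∈ W ×ˢ ball (0 : P) r', ‖F p‖ ≤ C * M) ∧
        ∀ x s, (x, h x) ∈ W → s ∈ ball (0 : P) r' → x ∈ U ∧ F ((x, h x), s) = e (x, s) := by
  have : ProperSpace P := FiniteDimensional.proper ℂ P
  have hB : Good (closedBall (0 : P) r') := ⟨isCompact_closedBall _ _, convex_closedBall _ _⟩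
  obtain ⟨W, C, h1, h2, h3, h4⟩ := bext_graph (E := E) (h := fun x : V × P => h x.1)
    (good_prod hL hB) hT (hh.comp differentiable_fst) (hU.prod (isOpen_ball (x := (0 : P)) (ε := r)))
    fun x hx hx' => ⟨hLU x.1 hx.1 hx', closedBall_subset_ball hr hx.2⟩
  have hσ : Differentiable ℂ fun p : (V × ℂ) × P => ((p.1.1, p.2), p.1.2) := by fun_prop
  obtain ⟨W', B', o1, -, s1, s2, s3⟩ := generalized_tube_lemma (good_prod hL hT).1 hB.1
    (h1.preimage hσ.continuous) fun p hp => h2 ⟨⟨hp.1.1, hp.2⟩, hp.1.2⟩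
  have s4 : ∀ p ∈ W' ×ˢ ball (0 : P) r', ((p.1.1, p.2), p.1.2) ∈ W := fun p hp =>
    s3 ⟨hp.1, s2 (ball_subset_closedBall hp.2)⟩
  refine ⟨W', C, o1, s1, h3, fun e M hM he hb => ?_⟩
  obtain ⟨F, k1, k2, k3⟩ := h4 e M hM he hb
  exact ⟨fun p => F ((p.1.1, p.2), p.1.2), k1.comp hσ.differentiableOn s4,
    fun p hp => k2 _ (s4 p hp), fun x s hx hs =>
      (k3 (x, s) (s4 ((x, h x), s) ⟨hx, hs⟩)).imp_left And.left⟩

/-- APPROX: approximation by entire maps -/
theorem approx_graph (hL : Good L) (hT : IsClosed T) (hT' : Convex ℝ T) (hh : Differentiable ℂ h)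
    {f : V → E} (hf : HolNear {x ∈ L | h x ∈ T} f) (ε : ℝ) (hε : 0 < ε) :
    ∃ p : V → E, Differentiable ℂ p ∧ ∀ x ∈ L, h x ∈ T → ‖p x - f x‖ < ε := by
  obtain ⟨R, hR⟩ := hL.1.exists_bound_of_continuousOn hh.continuous.continuousOn
  have hT1 : Good (closedBall (0 : ℂ) R ∩ T) :=
    ⟨(isCompact_closedBall _ _).inter_right hT, (convex_closedBall _ _).inter hT'⟩
  have h0 : {x ∈ L | h x ∈ closedBall (0 : ℂ) R ∩ T} ⊆ {x ∈ L | h x ∈ T} :=
    fun x hx => ⟨hx.1, hx.2.2⟩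
  obtain ⟨F, h1, h2⟩ := ext_graph hL hT1 hh (f := f) (hf.filter_mono (nhdsSet_mono h0))
  obtain ⟨q, h3, h4⟩ := okaWeil_vec (good_prod hL hT1).1 (good_prod hL hT1).2 h1 ε hε
  refine ⟨fun x => q (x, h x), h3.comp (differentiable_id.prodMk hh), fun x hx hx' => ?_⟩
  have h5 : h x ∈ closedBall (0 : ℂ) R ∩ T := ⟨mem_closedBall_zero_iff.2 (hR x hx), hx'⟩
  rw [← h2.self_of_nhdsSet x ⟨hx, h5⟩]
  exact h4 _ ⟨hx, h5⟩

theorem closed_strip (a b : ℝ) : IsClosed {z : ℂ | a ≤ z.re ∧ z.re ≤ b} :=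
  (isClosed_le continuous_const Complex.continuous_re).inter
    (isClosed_le Complex.continuous_re continuous_const)

theorem convex_strip (a b : ℝ) : Convex ℝ {z : ℂ | a ≤ z.re ∧ z.re ≤ b} :=
  (convex_halfSpace_re_ge a).inter (convex_halfSpace_re_le b)

theorem approx_strip (hL : Good L) (hh : Differentiable ℂ h) {a b : ℝ} {f : V → E}
    (hf : HolNear {x ∈ L | a ≤ (h x).re ∧ (h x).re ≤ b} f) (ε : ℝ) (hε : 0 < ε) :
    ∃ p : V → E, Differentiable ℂ p ∧ ∀ x ∈ L, a ≤ (h x).re → (h x).re ≤ b → ‖p x - f x‖ < ε := by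
  obtain ⟨p, h1, h2⟩ := approx_graph hL (closed_strip a b) (convex_strip a b) hh hf ε hε
  exact ⟨p, h1, fun x hx h3 h4 => h2 x hx ⟨h3, h4⟩⟩

end Vale.Agent.P290Z
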